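import Vale.Agent.P198.Hex.Miranda

/-!
# P198, Stage 2 block HX2: the Hex lemma on a board with hexagonal adjacency

Cells are the points of `Fin m × Fin n`; the neighbours of a cell are the six cells obtained by
adding `±(1,0)`, `±(0,1)`, `±(1,-1)`.
`hex_board` : for every set `A` of cells, `A` contains a chain from the bottom row to the top row
or `Aᶜ` contains a chain from the left column to the right column.
`cross_board` : a bottom-top chain and a left-right chain have a common cell.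
-/

open Set Topology unitInterval

namespace P198.PlanarTop

/-- `A` contains an `adj`-chain from `X` to `Y` -/
def Conn {C : Type*} (adj : C → C → Prop) (A X Y : Set C) : Prop :=
  ∃ x ∈ A ∩ X, ∃ y ∈ A ∩ Y, Relation.ReflTransGen (fun a b => adj a b ∧ b ∈ A) x y

/-- the hexagonal norm of the plane -/
noncomputable def hn (x y : ℝ) : ℝ := max |x| (max |y| |x + y|)

theorem hn_lt {x y r : ℝ} : hn x y < r ↔ |x| < r ∧ |y| < r ∧ |x + y| < r := by
  simp [hn]

theorem hn_le {x y r : ℝ} : hn x y ≤ r ↔ |x| ≤ r ∧ |y| ≤ r ∧ |x + y| ≤ r := by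
  simp [hn]

theorem hn_continuous : Continuous fun z : ℝ × ℝ => hn z.1 z.2 := by
  unfold hn
  fun_prop

variable {m n : ℕ}

/-- hexagonal adjacency on the board -/
def hadj (c c' : Fin m × Fin n) : Prop :=
  c ≠ c' ∧ |((c.1 : ℕ) : ℤ) - (c'.1 : ℕ)| ≤ 1 ∧ |((c.2 : ℕ) : ℤ) - (c'.2 : ℕ)| ≤ 1 ∧
    |(((c.1 : ℕ) : ℤ) - (c'.1 : ℕ)) + (((c.2 : ℕ) : ℤ) - (c'.2 : ℕ))| ≤ 1

theorem hadj.symm {c c' : Fin m × Fin n} (h : hadj c c') : hadj c' c := by
  refine ⟨h.1.symm, ?_, ?_, ?_⟩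
  · rw [abs_sub_comm]; exact h.2.1
  · rw [abs_sub_comm]; exact h.2.2.1
  · have h3 := h.2.2.2
    rw [← abs_neg] at h3
    convert! h3 using 2
    ring

/-- hexagonal distance of a point of the plane to (the centre of) a cell -/
noncomputable def dc (c : Fin m × Fin n) (x y : ℝ) : ℝ :=
  hn (x - ((c.1 : ℕ) : ℝ)) (y - ((c.2 : ℕ) : ℝ))

theorem int_abs_le_one {a : ℤ} (h : |(a : ℝ)| < 2) : |a| ≤ 1 := by
  have : |a| < 2 := by exact_mod_cast h
  omega

/-- two cells both at distance `< 1` of a point are equal or adjacent -/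
theorem eq_or_hadj {c c' : Fin m × Fin n} {x y : ℝ} (h : dc c x y < 1) (h' : dc c' x y < 1) :
    c = c' ∨ hadj c c' := by
  by_cases hcc : c = c'
  · exact Or.inl hcc
  right
  rw [dc, hn_lt] at h h'
  refine ⟨hcc, ?_, ?_, ?_⟩
  · apply int_abs_le_one
    push_cast
    have h1 := abs_lt.1 h.1
    have h2 := abs_lt.1 h'.1
    rw [abs_lt]
    constructor <;> linarith
  · apply int_abs_le_one
    push_cast
    have h1 := abs_lt.1 h.2.1
    have h2 := abs_lt.1 h'.2.1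
    rw [abs_lt]
    constructor <;> linarith
  · apply int_abs_le_one
    push_cast
    have h1 := abs_lt.1 h.2.2
    have h2 := abs_lt.1 h'.2.2
    rw [abs_lt]
    constructor <;> linarith

/-- every point of the board rectangle is at distance `≤ 2/3` of some cell -/
theorem exists_dc_le {x y : ℝ} (hx0 : 0 ≤ x) (hx1 : x ≤ (m : ℝ) - 1)
    (hy0 : 0 ≤ y) (hy1 : y ≤ (n : ℝ) - 1) : ∃ c : Fin m × Fin n, dc c x y ≤ 2 / 3 := by
  have hi : ⌊x⌋₊ < m := by
    have : (⌊x⌋₊ : ℝ) ≤ x := Nat.floor_le hx0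
    have h2 : (⌊x⌋₊ : ℝ) < m := by linarith
    exact_mod_cast h2
  have hj : ⌊y⌋₊ < n := by
    have : (⌊y⌋₊ : ℝ) ≤ y := Nat.floor_le hy0
    have h2 : (⌊y⌋₊ : ℝ) < n := by linarith
    exact_mod_cast h2
  have a1 : (⌊x⌋₊ : ℝ) ≤ x := Nat.floor_le hx0
  have a2 : x < (⌊x⌋₊ : ℝ) + 1 := Nat.lt_floor_add_one x
  have b1 : (⌊y⌋₊ : ℝ) ≤ y := Nat.floor_le hy0
  have b2 : y < (⌊y⌋₊ : ℝ) + 1 := Nat.lt_floor_add_one y
  -- the four corners
  have hi' : (⌊x⌋₊ : ℝ) < x → ⌊x⌋₊ + 1 < m := by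
    intro h
    have h2 : ((⌊x⌋₊ : ℝ)) + 1 < m := by linarith
    exact_mod_cast h2
  have hj' : (⌊y⌋₊ : ℝ) < y → ⌊y⌋₊ + 1 < n := by
    intro h
    have h2 : ((⌊y⌋₊ : ℝ)) + 1 < n := by linarith
    exact_mod_cast h2
  set s := x - ⌊x⌋₊ with hs
  set t := y - ⌊y⌋₊ with ht
  have s0 : 0 ≤ s := by linarith
  have s1 : s < 1 := by linarith
  have t0 : 0 ≤ t := by linarith
  have t1 : t < 1 := by linarith
  by_cases c1 : s + t ≤ 2 / 3
  · refine ⟨(⟨_, hi⟩, ⟨_, hj⟩), ?_⟩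
    rw [dc, hn_le]
    refine ⟨abs_le.2 ⟨?_, ?_⟩, abs_le.2 ⟨?_, ?_⟩, abs_le.2 ⟨?_, ?_⟩⟩ <;> simp only [] <;> linarith
  by_cases c2 : 4 / 3 ≤ s + t
  · refine ⟨(⟨_, hi' (by linarith)⟩, ⟨_, hj' (by linarith)⟩), ?_⟩
    rw [dc, hn_le]
    refine ⟨abs_le.2 ⟨?_, ?_⟩, abs_le.2 ⟨?_, ?_⟩, abs_le.2 ⟨?_, ?_⟩⟩ <;> push_cast <;> linarith
  by_cases c3 : t ≤ s
  · refine ⟨(⟨_, hi' (by linarith)⟩, ⟨_, hj⟩), ?_⟩
    rw [dc, hn_le]
    refine ⟨abs_le.2 ⟨?_, ?_⟩, abs_le.2 ⟨?_, ?_⟩, abs_le.2 ⟨?_, ?_⟩⟩ <;> push_cast <;> linarith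
  · refine ⟨(⟨_, hi⟩, ⟨_, hj' (by linarith)⟩), ?_⟩
    rw [dc, hn_le]
    refine ⟨abs_le.2 ⟨?_, ?_⟩, abs_le.2 ⟨?_, ?_⟩, abs_le.2 ⟨?_, ?_⟩⟩ <;> push_cast <;> linarith

/-- bottom row, top row, left column, right column -/
def bot : Set (Fin m × Fin n) := {c | (c.2 : ℕ) = 0}
def top' : Set (Fin m × Fin n) := {c | (c.2 : ℕ) + 1 = n}
def lft : Set (Fin m × Fin n) := {c | (c.1 : ℕ) = 0}
def rgt : Set (Fin m × Fin n) := {c | (c.1 : ℕ) + 1 = m}

theorem hex_board (hm : 0 < m) (hn' : 0 < n) (A : Set (Fin m × Fin n)) :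
    Conn hadj A bot top' ∨ Conn hadj Aᶜ lft rgt := by
  classical
  by_contra hcon
  push Not at hcon
  obtain ⟨hA, hB⟩ := hcon
  -- reachable sets
  let A1 : Set (Fin m × Fin n) := {c | c ∈ A ∧ ∃ x ∈ A ∩ bot,
    Relation.ReflTransGen (fun a b => hadj a b ∧ b ∈ A) x c}
  let B1 : Set (Fin m × Fin n) := {c | c ∈ Aᶜ ∧ ∃ x ∈ Aᶜ ∩ lft,
    Relation.ReflTransGen (fun a b => hadj a b ∧ b ∈ Aᶜ) x c}
  have hA1 : ∀ c c', c ∈ A1 → c' ∈ A → (c = c' ∨ hadj c c') → c' ∈ A1 := by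
    rintro c c' ⟨hc, x, hx, hch⟩ hc' (rfl | h)
    · exact ⟨hc, x, hx, hch⟩
    · exact ⟨hc', x, hx, hch.tail ⟨h, hc'⟩⟩
  have hB1 : ∀ c c', c ∈ B1 → c' ∈ Aᶜ → (c = c' ∨ hadj c c') → c' ∈ B1 := by
    rintro c c' ⟨hc, x, hx, hch⟩ hc' (rfl | h)
    · exact ⟨hc, x, hx, hch⟩
    · exact ⟨hc', x, hx, hch.tail ⟨h, hc'⟩⟩
  let wt : Fin m × Fin n → ℝ × ℝ → ℝ := fun c z => max 0 (1 - dc c z.1 z.2)
  have hwt0 : ∀ c z, 0 ≤ wt c z := fun c z => le_max_left _ _
  have hwtc : ∀ c, Continuous (wt c) := by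
    intro c
    have h1 : Continuous fun z : ℝ × ℝ => dc c z.1 z.2 := by
      have h2 : Continuous fun z : ℝ × ℝ => ((z.1 - ((c.1 : ℕ) : ℝ)), (z.2 - ((c.2 : ℕ) : ℝ))) := by
        fun_prop
      exact hn_continuous.comp h2
    exact continuous_const.max (continuous_const.sub h1)
  have hwtpos : ∀ c z, wt c z ≠ 0 → dc c z.1 z.2 < 1 := by
    intro c z h
    by_contra h'
    apply h
    exact max_eq_left (by linarith)
  let vr : Fin m × Fin n → ℝ := fun c => if c ∈ A then 0 else (if c ∈ B1 then 1 else -1)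
  let vi : Fin m × Fin n → ℝ := fun c => if c ∈ A then (if c ∈ A1 then 1 else -1) else 0
  let pos : I × I → ℝ × ℝ := fun z => (((m : ℝ) - 1) * z.1, ((n : ℝ) - 1) * z.2)
  have hpos : Continuous pos := by fun_prop
  let fr : I × I → ℝ := fun z => ∑ c, wt c (pos z) * vr c
  let fi : I × I → ℝ := fun z => ∑ c, wt c (pos z) * vi c
  have hfr : Continuous fr := continuous_finsetSum _ fun c _ =>
    ((hwtc c).comp hpos).mul continuous_const
  have hfi : Continuous fi := continuous_finsetSum _ fun c _ =>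
    ((hwtc c).comp hpos).mul continuous_const
  let f : C(I × I, ℂ) := ⟨fun z => (fr z : ℂ) + (fi z : ℂ) * Complex.I, by fun_prop⟩
  have hre : ∀ z, (f z).re = fr z := fun z => by simp [f]
  have him : ∀ z, (f z).im = fi z := fun z => by simp [f]
  have hm1 : (1 : ℝ) ≤ m := by exact_mod_cast hm
  have hn1 : (1 : ℝ) ≤ n := by exact_mod_cast hn'
  obtain ⟨z, hz⟩ := miranda f
    (by
      intro t
      rw [hre]
      refine Finset.sum_nonneg fun c _ => ?_
      by_cases hw : wt c (pos (0, t)) = 0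
      · rw [hw, zero_mul]
      · have h1 := (hn_lt.1 (hwtpos _ _ hw)).1
        have h2 : (c.1 : ℕ) = 0 := by
          simp only [pos, Icc.coe_zero, mul_zero, zero_sub, abs_neg, Nat.abs_cast] at h1
          have : (c.1 : ℕ) < 1 := by exact_mod_cast h1
          omega
        refine mul_nonneg (hwt0 _ _) ?_
        simp only [vr]
        split_ifs with h3 h4
        · exact le_rfl
        · exact zero_le_one
        · exact absurd ⟨h3, c, ⟨h3, h2⟩, Relation.ReflTransGen.refl⟩ h4)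
    (by
      intro t
      rw [hre]
      refine Finset.sum_nonpos fun c _ => ?_
      by_cases hw : wt c (pos (1, t)) = 0
      · rw [hw, zero_mul]
      · have h1 := (hn_lt.1 (hwtpos _ _ hw)).1
        have h2 : (c.1 : ℕ) + 1 = m := by
          simp only [pos, Icc.coe_one, mul_one] at h1
          have h5 := (abs_lt.1 h1).2
          have h6 : (m : ℝ) < (c.1 : ℕ) + 2 := by linarith
          have h7 : m < (c.1 : ℕ) + 2 := by exact_mod_cast h6
          have h8 := c.1.2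
          omega
        refine mul_nonpos_of_nonneg_of_nonpos (hwt0 _ _) ?_
        simp only [vr]
        split_ifs with h3 h4
        · exact le_rfl
        · obtain ⟨_, x, hx, hch⟩ := h4
          exact absurd ⟨x, hx, c, ⟨h3, h2⟩, hch⟩ hB
        · norm_num)
    (by
      intro s
      rw [him]
      refine Finset.sum_nonneg fun c _ => ?_
      by_cases hw : wt c (pos (s, 0)) = 0
      · rw [hw, zero_mul]
      · have h1 := (hn_lt.1 (hwtpos _ _ hw)).2.1
        have h2 : (c.2 : ℕ) = 0 := by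
          simp only [pos, Icc.coe_zero, mul_zero, zero_sub, abs_neg, Nat.abs_cast] at h1
          have : (c.2 : ℕ) < 1 := by exact_mod_cast h1
          omega
        refine mul_nonneg (hwt0 _ _) ?_
        simp only [vi]
        split_ifs with h3 h4
        · exact zero_le_one
        · exact absurd ⟨h3, c, ⟨h3, h2⟩, Relation.ReflTransGen.refl⟩ h4
        · exact le_rfl)
    (by
      intro s
      rw [him]
      refine Finset.sum_nonpos fun c _ => ?_
      by_cases hw : wt c (pos (s, 1)) = 0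
      · rw [hw, zero_mul]
      · have h1 := (hn_lt.1 (hwtpos _ _ hw)).2.1
        have h2 : (c.2 : ℕ) + 1 = n := by
          simp only [pos, Icc.coe_one, mul_one] at h1
          have h5 := (abs_lt.1 h1).2
          have h6 : (n : ℝ) < (c.2 : ℕ) + 2 := by linarith
          have h7 : n < (c.2 : ℕ) + 2 := by exact_mod_cast h6
          have h8 := c.2.2
          omega
        refine mul_nonpos_of_nonneg_of_nonpos (hwt0 _ _) ?_
        simp only [vi]
        split_ifs with h3 h4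
        · obtain ⟨_, x, hx, hch⟩ := h4
          exact absurd ⟨x, hx, c, ⟨h3, h2⟩, hch⟩ hA
        · norm_num
        · exact le_rfl)
  have hz1 : fr z = 0 := by rw [← hre, hz]; rfl
  have hz2 : fi z = 0 := by rw [← him, hz]; rfl
  -- a cell with positive weight
  obtain ⟨c, hc⟩ := exists_dc_le (m := m) (n := n) (x := (pos z).1) (y := (pos z).2)
    (mul_nonneg (by linarith) z.1.2.1) (by
      have := z.1.2.2
      simp only [pos]
      nlinarith) (mul_nonneg (by linarith) z.2.2.1) (by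
      have := z.2.2.2
      simp only [pos]
      nlinarith)
  have hwc : 0 < wt c (pos z) := lt_max_of_lt_right (by linarith)
  have hnb : ∀ c', wt c' (pos z) ≠ 0 → c = c' ∨ hadj c c' := fun c' h' =>
    eq_or_hadj (by linarith) (hwtpos _ _ h')
  by_cases hcA : c ∈ A
  · -- all `A` cells of positive weight are on the same side as `c`
    by_cases hc1 : c ∈ A1
    · have hnn : ∀ c' ∈ Finset.univ, 0 ≤ wt c' (pos z) * vi c' := by
        intro c' _
        by_cases hw : wt c' (pos z) = 0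
        · rw [hw, zero_mul]
        · refine mul_nonneg (hwt0 _ _) ?_
          simp only [vi]
          split_ifs with h3 h4
          · exact zero_le_one
          · exact absurd (hA1 c c' hc1 h3 (hnb c' hw)) h4
          · exact le_rfl
      have h0 := (Finset.sum_eq_zero_iff_of_nonneg hnn).1 hz2 c (Finset.mem_univ _)
      simp only [vi, hcA, hc1, if_true, mul_one] at h0
      linarith
    · have hnn : ∀ c' ∈ Finset.univ, wt c' (pos z) * vi c' ≤ 0 := by
        intro c' _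
        by_cases hw : wt c' (pos z) = 0
        · rw [hw, zero_mul]
        · refine mul_nonpos_of_nonneg_of_nonpos (hwt0 _ _) ?_
          simp only [vi]
          split_ifs with h3 h4
          · exact absurd (hA1 c' c h4 hcA ((hnb c' hw).imp Eq.symm hadj.symm)) hc1
          · norm_num
          · exact le_rfl
      have h0 := (Finset.sum_eq_zero_iff_of_nonpos hnn).1 hz2 c (Finset.mem_univ _)
      simp only [vi, hcA, hc1, if_true, if_false, mul_neg, mul_one, neg_eq_zero] at h0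
      linarith
  · by_cases hc1 : c ∈ B1
    · have hnn : ∀ c' ∈ Finset.univ, 0 ≤ wt c' (pos z) * vr c' := by
        intro c' _
        by_cases hw : wt c' (pos z) = 0
        · rw [hw, zero_mul]
        · refine mul_nonneg (hwt0 _ _) ?_
          simp only [vr]
          split_ifs with h3 h4
          · exact le_rfl
          · exact zero_le_one
          · exact absurd (hB1 c c' hc1 h3 (hnb c' hw)) h4
      have h0 := (Finset.sum_eq_zero_iff_of_nonneg hnn).1 hz1 c (Finset.mem_univ _)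
      simp only [vr, hcA, hc1, if_true, if_false, mul_one] at h0
      linarith
    · have hnn : ∀ c' ∈ Finset.univ, wt c' (pos z) * vr c' ≤ 0 := by
        intro c' _
        by_cases hw : wt c' (pos z) = 0
        · rw [hw, zero_mul]
        · refine mul_nonpos_of_nonneg_of_nonpos (hwt0 _ _) ?_
          simp only [vr]
          split_ifs with h3 h4
          · exact le_rfl
          · exact absurd (hB1 c' c h4 hcA ((hnb c' hw).imp Eq.symm hadj.symm)) hc1
          · norm_num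
      have h0 := (Finset.sum_eq_zero_iff_of_nonpos hnn).1 hz1 c (Finset.mem_univ _)
      simp only [vr, hcA, hc1, if_false, mul_neg, mul_one, neg_eq_zero] at h0
      linarith

/-! ### the cross property -/

/-- centre of a cell -/
def ctr (c : Fin m × Fin n) : ℂ := ⟨((c.1 : ℕ) : ℝ), ((c.2 : ℕ) : ℝ)⟩

/-- geometric realisation of a set of cells: union of the edges between its cells -/
def rea (A : Set (Fin m × Fin n)) : Set ℂ :=
  {z | ∃ p ∈ A, ∃ q ∈ A, (p = q ∨ hadj p q) ∧ z ∈ segment ℝ (ctr p) (ctr q)}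

theorem joinedIn_of_chain {A : Set (Fin m × Fin n)} {x y : Fin m × Fin n} (hx : x ∈ A)
    (h : Relation.ReflTransGen (fun a b => hadj a b ∧ b ∈ A) x y) :
    y ∈ A ∧ JoinedIn (rea A) (ctr x) (ctr y) := by
  induction h with
  | refl => exact ⟨hx, JoinedIn.refl ⟨x, hx, x, hx, Or.inl rfl, left_mem_segment _ _ _⟩⟩
  | tail h1 h2 ih =>
    exact ⟨h2.2, ih.2.trans (JoinedIn.of_segment_subset
      (fun z hz => ⟨_, ih.1, _, h2.2, Or.inr h2.1, hz⟩))⟩

theorem int_step {d a : ℤ} {t : ℝ} (ht0 : 0 ≤ t) (ht1 : t ≤ 1) (hd : |d| ≤ 1)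
    (h : |t * d - a| < 1) : a = 0 ∨ a = d := by
  have hd' := abs_le.1 hd
  have h' := abs_lt.1 h
  rcases (by omega : d = -1 ∨ d = 0 ∨ d = 1) with rfl | rfl | rfl
  · push_cast at h'
    have h1 : (-2 : ℝ) < a := by linarith
    have h2 : (a : ℝ) < 1 := by linarith
    have h3 : -2 < a := by exact_mod_cast h1
    have h4 : a < 1 := by exact_mod_cast h2
    omega
  · push_cast at h'
    have h1 : (-1 : ℝ) < a := by linarith
    have h2 : (a : ℝ) < 1 := by linarith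
    have h3 : -1 < a := by exact_mod_cast h1
    have h4 : a < 1 := by exact_mod_cast h2
    omega
  · push_cast at h'
    have h1 : (-1 : ℝ) < a := by linarith
    have h2 : (a : ℝ) < 2 := by linarith
    have h3 : -1 < a := by exact_mod_cast h1
    have h4 : a < 2 := by exact_mod_cast h2
    omega

theorem seg_coord {p q : Fin m × Fin n} {z : ℂ} (hz : z ∈ segment ℝ (ctr p) (ctr q)) :
    ∃ t : ℝ, 0 ≤ t ∧ t ≤ 1 ∧
      z.re = ((p.1 : ℕ) : ℝ) + t * ((((q.1 : ℕ) : ℤ) - ((p.1 : ℕ) : ℤ) : ℤ) : ℝ) ∧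
      z.im = ((p.2 : ℕ) : ℝ) + t * ((((q.2 : ℕ) : ℤ) - ((p.2 : ℕ) : ℤ) : ℤ) : ℝ) := by
  obtain ⟨a, b, ha, hb, hab, rfl⟩ := hz
  refine ⟨b, hb, by linarith, ?_, ?_⟩
  · simp [ctr]
    linear_combination ((p.1 : ℕ) : ℝ) * hab
  · simp [ctr]
    linear_combination ((p.2 : ℕ) : ℝ) * hab

/-- the only cells at distance `< 1` of a point of an edge are the end points of this edge -/
theorem eq_of_dc_lt {p q r : Fin m × Fin n} (hpq : p = q ∨ hadj p q) {z : ℂ}
    (hz : z ∈ segment ℝ (ctr p) (ctr q)) (hr : dc r z.re z.im < 1) : r = p ∨ r = q := by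
  obtain ⟨t, ht0, ht1, hx, hy⟩ := seg_coord hz
  rw [dc, hn_lt, hx, hy] at hr
  have h12 : |((q.1 : ℕ) : ℤ) - ((p.1 : ℕ) : ℤ)| ≤ 1 ∧ |((q.2 : ℕ) : ℤ) - ((p.2 : ℕ) : ℤ)| ≤ 1 ∧
      |(((q.1 : ℕ) : ℤ) - ((p.1 : ℕ) : ℤ)) + (((q.2 : ℕ) : ℤ) - ((p.2 : ℕ) : ℤ))| ≤ 1 := by
    rcases hpq with rfl | h
    · simp
    · exact h.symm.2
  have a1 := int_step (d := ((q.1 : ℕ) : ℤ) - ((p.1 : ℕ) : ℤ))
    (a := ((r.1 : ℕ) : ℤ) - ((p.1 : ℕ) : ℤ)) ht0 ht1 h12.1 (by
      have := hr.1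
      push_cast at this ⊢
      convert! this using 2
      ring)
  have a2 := int_step (d := ((q.2 : ℕ) : ℤ) - ((p.2 : ℕ) : ℤ))
    (a := ((r.2 : ℕ) : ℤ) - ((p.2 : ℕ) : ℤ)) ht0 ht1 h12.2.1 (by
      have := hr.2.1
      push_cast at this ⊢
      convert! this using 2
      ring)
  have a3 := int_step (d := (((q.1 : ℕ) : ℤ) - ((p.1 : ℕ) : ℤ)) +
      (((q.2 : ℕ) : ℤ) - ((p.2 : ℕ) : ℤ)))
    (a := (((r.1 : ℕ) : ℤ) - ((p.1 : ℕ) : ℤ)) + (((r.2 : ℕ) : ℤ) - ((p.2 : ℕ) : ℤ)))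
    ht0 ht1 h12.2.2 (by
      have := hr.2.2
      push_cast at this ⊢
      convert! this using 2
      ring)
  have key : (((r.1 : ℕ) : ℤ) = p.1 ∧ ((r.2 : ℕ) : ℤ) = p.2) ∨
      (((r.1 : ℕ) : ℤ) = q.1 ∧ ((r.2 : ℕ) : ℤ) = q.2) := by
    omega
  rcases key with ⟨k1, k2⟩ | ⟨k1, k2⟩
  · left
    exact Prod.ext (Fin.ext (by exact_mod_cast k1)) (Fin.ext (by exact_mod_cast k2))
  · right
    exact Prod.ext (Fin.ext (by exact_mod_cast k1)) (Fin.ext (by exact_mod_cast k2))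

/-- one of the end points of an edge is at distance `< 1` of a point of the edge -/
theorem exists_dc_lt {p q : Fin m × Fin n} (hpq : p = q ∨ hadj p q) {z : ℂ}
    (hz : z ∈ segment ℝ (ctr p) (ctr q)) : dc p z.re z.im < 1 ∨ dc q z.re z.im < 1 := by
  obtain ⟨t, ht0, ht1, hx, hy⟩ := seg_coord hz
  have h12 : |((q.1 : ℕ) : ℤ) - ((p.1 : ℕ) : ℤ)| ≤ 1 ∧ |((q.2 : ℕ) : ℤ) - ((p.2 : ℕ) : ℤ)| ≤ 1 ∧
      |(((q.1 : ℕ) : ℤ) - ((p.1 : ℕ) : ℤ)) + (((q.2 : ℕ) : ℤ) - ((p.2 : ℕ) : ℤ))| ≤ 1 := by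
    rcases hpq with rfl | h
    · simp
    · exact h.symm.2
  rcases lt_or_eq_of_le ht1 with h | h
  · left
    rw [dc, hn_lt, hx, hy]
    have key : ∀ d : ℤ, |d| ≤ 1 → |t * (d : ℝ)| < 1 := by
      intro d hd
      have : |(d : ℝ)| ≤ 1 := by exact_mod_cast hd
      rw [abs_mul, abs_of_nonneg ht0]
      nlinarith [abs_nonneg (d : ℝ)]
    refine ⟨?_, ?_, ?_⟩
    · rw [add_sub_cancel_left]; exact key _ h12.1
    · rw [add_sub_cancel_left]; exact key _ h12.2.1
    · rw [add_sub_cancel_left, add_sub_cancel_left, ← mul_add, ← Int.cast_add]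
      exact key _ h12.2.2
  · right
    rw [dc, hn_lt, hx, hy, h]
    push_cast
    refine ⟨?_, ?_, ?_⟩ <;> ring_nf <;> simp

theorem rea_bounds {A : Set (Fin m × Fin n)} {z : ℂ} (hz : z ∈ rea A) :
    0 ≤ z.re ∧ z.re ≤ (m : ℝ) - 1 ∧ 0 ≤ z.im ∧ z.im ≤ (n : ℝ) - 1 := by
  obtain ⟨p, -, q, -, -, hz⟩ := hz
  obtain ⟨t, ht0, ht1, hx, hy⟩ := seg_coord hz
  have bd : ∀ (k a b : ℕ), a < k → b < k → 0 ≤ (a : ℝ) + t * (((b : ℤ) - (a : ℤ) : ℤ) : ℝ) ∧
      (a : ℝ) + t * (((b : ℤ) - (a : ℤ) : ℤ) : ℝ) ≤ (k : ℝ) - 1 := by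
    intro k a b ha hb
    have ha' : (a : ℝ) + 1 ≤ k := by exact_mod_cast ha
    have hb' : (b : ℝ) + 1 ≤ k := by exact_mod_cast hb
    have ha0 : (0 : ℝ) ≤ a := Nat.cast_nonneg _
    have hb0 : (0 : ℝ) ≤ b := Nat.cast_nonneg _
    push_cast
    constructor <;> nlinarith
  rw [hx, hy]
  exact ⟨(bd m _ _ p.1.2 q.1.2).1, (bd m _ _ p.1.2 q.1.2).2, (bd n _ _ p.2.2 q.2.2).1,
    (bd n _ _ p.2.2 q.2.2).2⟩

theorem cross_board {A B : Set (Fin m × Fin n)} (hA : Conn hadj A bot top')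
    (hB : Conn hadj B lft rgt) : (A ∩ B).Nonempty := by
  obtain ⟨x, hx, y, hy, hch⟩ := hA
  obtain ⟨x', hx', y', hy', hch'⟩ := hB
  have hJ := (joinedIn_of_chain hx.1 hch).2
  have hJ' := (joinedIn_of_chain hx'.1 hch').2
  obtain ⟨s, t, hst⟩ := crossing 0 ((m : ℝ) - 1) 0 ((n : ℝ) - 1) hJ.somePath.toContinuousMap
    hJ'.somePath.toContinuousMap
    (fun s => by
      have := rea_bounds (hJ.somePath_mem s)
      exact ⟨this.1, this.2.1⟩)
    (fun s => by
      have := rea_bounds (hJ'.somePath_mem s)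
      exact ⟨this.2.2.1, this.2.2.2⟩)
    (by
      have h1 : ((x.2 : ℕ) : ℝ) = 0 := by exact_mod_cast hx.2
      simp [ctr, h1])
    (by
      have h1 : ((y.2 : ℕ) : ℝ) + 1 = n := by exact_mod_cast hy.2
      simp [ctr, ← h1])
    (by
      have h1 : ((x'.1 : ℕ) : ℝ) = 0 := by exact_mod_cast hx'.2
      simp [ctr, h1])
    (by
      have h1 : ((y'.1 : ℕ) : ℝ) + 1 = m := by exact_mod_cast hy'.2
      simp [ctr, ← h1])
  have hz := hJ.somePath_mem s
  have hz' := hJ'.somePath_mem t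
  have hst' : hJ.somePath s = hJ'.somePath t := hst
  rw [← hst'] at hz'
  set z := hJ.somePath s
  obtain ⟨p, hp, q, hq, hpq, hzs⟩ := hz
  obtain ⟨p', hp', q', hq', hpq', hzs'⟩ := hz'
  rcases exists_dc_lt hpq hzs with h | h
  · rcases eq_of_dc_lt hpq' hzs' h with rfl | rfl
    · exact ⟨_, hp, hp'⟩
    · exact ⟨_, hp, hq'⟩
  · rcases eq_of_dc_lt hpq' hzs' h with rfl | rfl
    · exact ⟨_, hq, hp'⟩
    · exact ⟨_, hq, hq'⟩

end P198.PlanarTop
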