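import Vale.Agent.P198.SQ.Hex
import Vale.Agent.P198.Hex.Board

/-!
# P198, Stage 2 block HX3: merging the bricks of a combinatorial rectangle into clusters

`boardRect` : the hexagonal board is a combinatorial rectangle (`P198S.HexRect`).
`MergeData H lab` : a labelling of the cells of a combinatorial rectangle by inner clusters `inl i`
and four giants `inr 0, .., inr 3` (bottom, top, left, right).
`MergeData.rect` : the main component of the inner clusters is a combinatorial rectangle.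
-/

open Set

namespace P198.PlanarTop

open P198S (HexRect rtg_mono)

theorem chain_both {C : Type*} {adj : C → C → Prop} {A : Set C} {x y : C} (hx : x ∈ A)
    (h : Relation.ReflTransGen (fun a b => adj a b ∧ b ∈ A) x y) :
    y ∈ A ∧ Relation.ReflTransGen (fun u v => adj u v ∧ u ∈ A ∧ v ∈ A) x y := by
  induction h with
  | refl => exact ⟨hx, .refl⟩
  | tail _ h2 ih => exact ⟨h2.2, ih.2.tail ⟨h2.1, ih.1, h2.2⟩⟩

theorem Conn.toS {C : Type*} {adj : C → C → Prop} {A X Y : Set C} (h : Conn adj A X Y) :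
    P198S.Conn adj A X Y := by
  obtain ⟨x, hx, y, hy, hch⟩ := h
  exact ⟨x, hx.1, hx.2, y, hy.1, hy.2, (chain_both hx.1 hch).2⟩

theorem Conn.ofS {C : Type*} {adj : C → C → Prop} {A X Y : Set C} (h : P198S.Conn adj A X Y) :
    Conn adj A X Y := by
  obtain ⟨x, hx, hxX, y, hy, hyY, hch⟩ := h
  exact ⟨x, ⟨hx, hxX⟩, y, ⟨hy, hyY⟩, rtg_mono (fun _ _ h => ⟨h.1, h.2.2⟩) hch⟩

theorem rtg_symm {α : Type*} {r : α → α → Prop} (hs : ∀ a b, r a b → r b a) {a b : α}
    (h : Relation.ReflTransGen r a b) : Relation.ReflTransGen r b a := by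
  induction h with
  | refl => exact .refl
  | tail _ h2 ih => exact Relation.ReflTransGen.head (hs _ _ h2) ih

section board

variable {m n : ℕ}

theorem hadj_row {i : ℕ} (hi : i + 1 < m) (j : Fin n) :
    hadj ((⟨i, by omega⟩, j) : Fin m × Fin n) (⟨i + 1, hi⟩, j) := by
  refine ⟨?_, ?_, ?_, ?_⟩
  · intro h
    have := congrArg (fun c : Fin m × Fin n => (c.1 : ℕ)) h
    simp at this
  · simp
  · simp
  · simp

theorem hadj_col {j : ℕ} (hj : j + 1 < n) (i : Fin m) :
    hadj ((i, ⟨j, by omega⟩) : Fin m × Fin n) (i, ⟨j + 1, hj⟩) := by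
  refine ⟨?_, ?_, ?_, ?_⟩
  · intro h
    have := congrArg (fun c : Fin m × Fin n => (c.2 : ℕ)) h
    simp at this
  · simp
  · simp
  · simp

theorem board_reach_row (hm : 0 < m) (j : Fin n) : ∀ (i : ℕ) (hi : i < m),
    Relation.ReflTransGen hadj ((⟨0, hm⟩, j) : Fin m × Fin n) (⟨i, hi⟩, j) := by
  intro i
  induction i with
  | zero => intro hi; exact .refl
  | succ i ih => intro hi; exact (ih (by omega)).tail (hadj_row hi j)

theorem board_reach_col (hn : 0 < n) (i : Fin m) : ∀ (j : ℕ) (hj : j < n),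
    Relation.ReflTransGen hadj ((i, ⟨0, hn⟩) : Fin m × Fin n) (i, ⟨j, hj⟩) := by
  intro j
  induction j with
  | zero => intro hj; exact .refl
  | succ j ih => intro hj; exact (ih (by omega)).tail (hadj_col hj i)

theorem board_connected (a b : Fin m × Fin n) : Relation.ReflTransGen hadj a b := by
  have hm : 0 < m := lt_of_le_of_lt (Nat.zero_le _) a.1.2
  have hn : 0 < n := lt_of_le_of_lt (Nat.zero_le _) a.2.2
  have key : ∀ c : Fin m × Fin n,
      Relation.ReflTransGen hadj ((⟨0, hm⟩, ⟨0, hn⟩) : Fin m × Fin n) c := by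
    rintro ⟨⟨i, hi⟩, ⟨j, hj⟩⟩
    exact (board_reach_row hm ⟨0, hn⟩ i hi).trans (board_reach_col hn ⟨i, hi⟩ j hj)
  exact (rtg_symm (fun _ _ h => h.symm) (key a)).trans (key b)

/-- the hexagonal board as a combinatorial rectangle -/
def boardRect (m n : ℕ) (hm : 0 < m) (hn : 0 < n) : HexRect (Fin m × Fin n) where
  adj := hadj
  symm := fun _ _ h => h.symm
  connected := board_connected
  L := bot
  R := top'
  S := lft
  T := rgt
  hex := fun A => (hex_board hm hn A).imp Conn.toS Conn.toS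
  cross := fun _ _ hA hB => cross_board (Conn.ofS hA) (Conn.ofS hB)

end board

section merge

variable {C I : Type*}

/-- a labelling of the cells by inner clusters and by the four giants -/
structure MergeData (H : HexRect C) (lab : C → I ⊕ Fin 4) : Prop where
  surj : ∀ i : I, ∃ c, lab c = Sum.inl i
  conn : ∀ a b, lab a = lab b →
    Relation.ReflTransGen (fun u v => H.adj u v ∧ lab u = lab a ∧ lab v = lab a) a b
  hL : ∀ c ∈ H.L, lab c = Sum.inr 0
  hR : ∀ c ∈ H.R, lab c = Sum.inr 1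
  hS : ∀ c ∈ H.S, lab c = Sum.inr 0 ∨ lab c = Sum.inr 1 ∨ lab c = Sum.inr 2
  hT : ∀ c ∈ H.T, lab c = Sum.inr 0 ∨ lab c = Sum.inr 1 ∨ lab c = Sum.inr 3
  nLR : ∀ a b, H.adj a b → lab a = Sum.inr 0 → lab b ≠ Sum.inr 1
  nST : ∀ a b, H.adj a b → lab a = Sum.inr 2 → lab b ≠ Sum.inr 3
  exS : ∃ c ∈ H.S, lab c = Sum.inr 2
  exT : ∃ c ∈ H.T, lab c = Sum.inr 3

/-- adjacency of clusters -/
def iadj (H : HexRect C) (lab : C → I ⊕ Fin 4) (i j : I) : Prop :=
  i ≠ j ∧ ∃ a b, lab a = Sum.inl i ∧ lab b = Sum.inl j ∧ H.adj a b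

/-- clusters adjacent to the giant `g` -/
def side (H : HexRect C) (lab : C → I ⊕ Fin 4) (g : Fin 4) : Set I :=
  {i | ∃ a b, lab a = Sum.inr g ∧ lab b = Sum.inl i ∧ H.adj a b}

theorem iadj_symm {H : HexRect C} {lab : C → I ⊕ Fin 4} (i j : I) (h : iadj H lab i j) :
    iadj H lab j i := by
  obtain ⟨hne, a, b, ha, hb, hab⟩ := h
  exact ⟨hne.symm, b, a, hb, ha, H.symm _ _ hab⟩

/-- last exit from a giant, first entrance to another one -/
theorem extract {H : HexRect C} {lab : C → I ⊕ Fin 4} (g0 g1 : Fin 4) (hne : g0 ≠ g1)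
    (hn : ∀ a b, H.adj a b → lab a = Sum.inr g0 → lab b ≠ Sum.inr g1) (A : Set I) {a b : C}
    (ha : lab a = Sum.inr g0) (hb : lab b = Sum.inr g1)
    (h : Relation.ReflTransGen (fun u v => H.adj u v ∧
      (lab v = Sum.inr g0 ∨ lab v = Sum.inr g1 ∨ ∃ i ∈ A, lab v = Sum.inl i)) a b) :
    P198S.Conn (iadj H lab) A (side H lab g0) (side H lab g1) := by
  have key : ∀ y, Relation.ReflTransGen (fun u v => H.adj u v ∧
      (lab v = Sum.inr g0 ∨ lab v = Sum.inr g1 ∨ ∃ i ∈ A, lab v = Sum.inl i)) a y →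
      (lab y = Sum.inr g0 ∨ (∃ i ∈ A, lab y = Sum.inl i ∧ ∃ i0 ∈ A, i0 ∈ side H lab g0 ∧
        Relation.ReflTransGen (fun u v => iadj H lab u v ∧ u ∈ A ∧ v ∈ A) i0 i) ∨
        P198S.Conn (iadj H lab) A (side H lab g0) (side H lab g1)) := by
    intro y hy
    induction hy with
    | refl => exact Or.inl ha
    | @tail y z _ hyz ih =>
      rcases ih with h1 | ⟨i, hi, hyi, i0, hi0, hi0s, hch⟩ | h3
      · rcases hyz.2 with h4 | h4 | ⟨j, hj, h4⟩
        · exact Or.inl h4
        · exact absurd h4 (hn y z hyz.1 h1)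
        · exact Or.inr (Or.inl ⟨j, hj, h4, j, hj, ⟨y, z, h1, h4, hyz.1⟩, .refl⟩)
      · rcases hyz.2 with h4 | h4 | ⟨j, hj, h4⟩
        · exact Or.inl h4
        · exact Or.inr (Or.inr ⟨i0, hi0, hi0s, i, hi, ⟨z, y, h4, hyi, H.symm _ _ hyz.1⟩, hch⟩)
        · by_cases hij : i = j
          · exact Or.inr (Or.inl ⟨j, hj, h4, i0, hi0, hi0s, hij ▸ hch⟩)
          · exact Or.inr (Or.inl ⟨j, hj, h4, i0, hi0, hi0s,
              hch.tail ⟨⟨hij, y, z, hyi, h4, hyz.1⟩, hi, hj⟩⟩)
      · exact Or.inr (Or.inr h3)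
  rcases key b h with h1 | ⟨i, _, hbi, _⟩ | h3
  · rw [hb] at h1
    exact absurd (Sum.inr_injective h1).symm hne
  · rw [hb] at hbi
    exact absurd hbi (by simp)
  · exact h3

/-- the cells of a set of inner clusters and two giants -/
def cells (lab : C → I ⊕ Fin 4) (g0 g1 : Fin 4) (A : Set I) : Set C :=
  {c | lab c = Sum.inr g0 ∨ lab c = Sum.inr g1 ∨ ∃ i ∈ A, lab c = Sum.inl i}

namespace MergeData

variable {H : HexRect C} {lab : C → I ⊕ Fin 4} (D : MergeData H lab)
include D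

theorem hexI (A : Set I) : P198S.Conn (iadj H lab) A (side H lab 0) (side H lab 1) ∨
    P198S.Conn (iadj H lab) Aᶜ (side H lab 2) (side H lab 3) := by
  rcases H.hex (cells lab 0 1 A) with h | h
  · left
    obtain ⟨a, _, haL, b, _, hbR, hch⟩ := h
    exact extract 0 1 (by decide) D.nLR A (D.hL a haL) (D.hR b hbR)
      (rtg_mono (fun _ _ h => ⟨h.1, h.2.2⟩) hch)
  · right
    obtain ⟨a, haA, haS, b, hbA, hbT, hch⟩ := h
    have ha2 : lab a = Sum.inr 2 := by
      rcases D.hS a haS with h | h | h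
      · exact absurd (Or.inl h) haA
      · exact absurd (Or.inr (Or.inl h)) haA
      · exact h
    have hb3 : lab b = Sum.inr 3 := by
      rcases D.hT b hbT with h | h | h
      · exact absurd (Or.inl h) hbA
      · exact absurd (Or.inr (Or.inl h)) hbA
      · exact h
    refine extract 2 3 (by decide) D.nST Aᶜ ha2 hb3 (rtg_mono (fun u v h => ⟨h.1, ?_⟩) hch)
    have hv := h.2.2
    rcases hlv : lab v with i | g
    · refine Or.inr (Or.inr ⟨i, ?_, rfl⟩)
      intro hi
      exact hv (Or.inr (Or.inr ⟨i, hi, hlv⟩))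
    · have h01 : ¬ (g = 0 ∨ g = 1) := by
        rintro (rfl | rfl)
        · exact hv (Or.inl hlv)
        · exact hv (Or.inr (Or.inl hlv))
      have h23 : ∀ g : Fin 4, ¬ (g = 0 ∨ g = 1) → g = 2 ∨ g = 3 := by decide
      have := h23 g h01
      rcases this with rfl | rfl
      · exact Or.inl rfl
      · exact Or.inr (Or.inl rfl)

/-- lift a chain of clusters to a chain of cells -/
theorem lift {A : Set I} {i j : I} (g0 g1 : Fin 4) (hi : i ∈ A)
    (h : Relation.ReflTransGen (fun u v => iadj H lab u v ∧ u ∈ A ∧ v ∈ A) i j) :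
    ∀ c d, lab c = Sum.inl i → lab d = Sum.inl j →
      Relation.ReflTransGen (fun u v => H.adj u v ∧ u ∈ cells lab g0 g1 A ∧
        v ∈ cells lab g0 g1 A) c d := by
  induction h with
  | refl =>
    intro c d hc hd
    refine rtg_mono (fun u v h => ⟨h.1, ?_, ?_⟩) (D.conn c d (hc.trans hd.symm))
    · exact Or.inr (Or.inr ⟨i, hi, h.2.1.trans hc⟩)
    · exact Or.inr (Or.inr ⟨i, hi, h.2.2.trans hc⟩)
  | @tail j k _ hjk ih =>
    intro c d hc hd
    obtain ⟨⟨_, a, b, ha, hb, hab⟩, hj, hk⟩ := hjk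
    have h1 := ih c a hc ha
    have ma : a ∈ cells lab g0 g1 A := Or.inr (Or.inr ⟨j, hj, ha⟩)
    have mb : b ∈ cells lab g0 g1 A := Or.inr (Or.inr ⟨k, hk, hb⟩)
    refine (h1.tail ⟨hab, ma, mb⟩).trans ?_
    refine rtg_mono (fun u v h => ⟨h.1, ?_, ?_⟩) (D.conn b d (hb.trans hd.symm))
    · exact Or.inr (Or.inr ⟨k, hk, h.2.1.trans hb⟩)
    · exact Or.inr (Or.inr ⟨k, hk, h.2.2.trans hb⟩)

theorem liftConn {A : Set I} (g0 g1 : Fin 4) {X Y : Set C} (hX : ∃ c ∈ X, lab c = Sum.inr g0)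
    (hY : ∃ c ∈ Y, lab c = Sum.inr g1)
    (h : P198S.Conn (iadj H lab) A (side H lab g0) (side H lab g1)) :
    P198S.Conn H.adj (cells lab g0 g1 A) X Y := by
  obtain ⟨i, hi, ⟨a, b, ha, hb, hab⟩, j, hj, ⟨a', b', ha', hb', hab'⟩, hch⟩ := h
  obtain ⟨x, hx, hlx⟩ := hX
  obtain ⟨y, hy, hly⟩ := hY
  refine ⟨x, Or.inl hlx, hx, y, Or.inr (Or.inl hly), hy, ?_⟩
  have s1 : Relation.ReflTransGen (fun u v => H.adj u v ∧ u ∈ cells lab g0 g1 A ∧
      v ∈ cells lab g0 g1 A) x a :=
    rtg_mono (fun u v h => ⟨h.1, Or.inl (h.2.1.trans hlx), Or.inl (h.2.2.trans hlx)⟩)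
      (D.conn x a (hlx.trans ha.symm))
  have s2 := D.lift g0 g1 hi hch b b' hb hb'
  have s3 : Relation.ReflTransGen (fun u v => H.adj u v ∧ u ∈ cells lab g0 g1 A ∧
      v ∈ cells lab g0 g1 A) a' y :=
    rtg_mono (fun u v h => ⟨h.1, Or.inr (Or.inl (h.2.1.trans ha')),
      Or.inr (Or.inl (h.2.2.trans ha'))⟩) (D.conn a' y (ha'.trans hly.symm))
  have ma : a ∈ cells lab g0 g1 A := Or.inl ha
  have mb : b ∈ cells lab g0 g1 A := Or.inr (Or.inr ⟨i, hi, hb⟩)
  have ma' : a' ∈ cells lab g0 g1 A := Or.inr (Or.inl ha')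
  have mb' : b' ∈ cells lab g0 g1 A := Or.inr (Or.inr ⟨j, hj, hb'⟩)
  exact ((s1.tail ⟨hab, ma, mb⟩).trans s2).trans
    (Relation.ReflTransGen.head ⟨H.symm _ _ hab', mb', ma'⟩ s3)

theorem crossI (A B : Set I) (hA : P198S.Conn (iadj H lab) A (side H lab 0) (side H lab 1))
    (hB : P198S.Conn (iadj H lab) B (side H lab 2) (side H lab 3)) : (A ∩ B).Nonempty := by
  obtain ⟨l, _, hl, r, _, hr, _⟩ := H.conn_univ
  obtain ⟨c, hcA, hcB⟩ := H.cross _ _
    (D.liftConn 0 1 ⟨l, hl, D.hL l hl⟩ ⟨r, hr, D.hR r hr⟩ hA)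
    (D.liftConn 2 3 D.exS D.exT hB)
  rcases hcA with h | h | ⟨i, hi, h⟩
  · rcases hcB with h' | h' | ⟨j, _, h'⟩ <;> rw [h] at h' <;> simp at h'
  · rcases hcB with h' | h' | ⟨j, _, h'⟩ <;> rw [h] at h' <;> simp at h'
  · rcases hcB with h' | h' | ⟨j, hj, h'⟩
    · rw [h] at h'; simp at h'
    · rw [h] at h'; simp at h'
    · rw [h] at h'
      have hij : i = j := Sum.inl_injective h'
      exact ⟨i, hi, hij ▸ hj⟩

end MergeData

/-- the main component of the inner clusters: the clusters whose component contains a chain from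
the bottom giant to the top giant -/
def main (H : HexRect C) (lab : C → I ⊕ Fin 4) : Set I :=
  {i | ∃ x y, x ∈ side H lab 0 ∧ y ∈ side H lab 1 ∧ Relation.ReflTransGen (iadj H lab) x y ∧
    Relation.ReflTransGen (iadj H lab) x i}

theorem main_closed {H : HexRect C} {lab : C → I ⊕ Fin 4} {i j : I} (hi : i ∈ main H lab)
    (h : Relation.ReflTransGen (iadj H lab) i j) : j ∈ main H lab := by
  obtain ⟨x, y, hx, hy, hxy, hxi⟩ := hi
  exact ⟨x, y, hx, hy, hxy, hxi.trans h⟩

theorem chain_in_comp {H : HexRect C} {lab : C → I ⊕ Fin 4} {M : Set I}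
    (hM : ∀ i j, i ∈ M → Relation.ReflTransGen (iadj H lab) i j → j ∈ M) {x y : I} (hx : x ∈ M)
    (h : Relation.ReflTransGen (iadj H lab) x y) :
    Relation.ReflTransGen (fun u v => iadj H lab u v ∧ u ∈ M ∧ v ∈ M) x y := by
  induction h with
  | refl => exact .refl
  | @tail y z h1 h2 ih => exact ih.tail ⟨h2, hM _ _ hx h1, hM _ _ hx (h1.tail h2)⟩

namespace MergeData

variable {H : HexRect C} {lab : C → I ⊕ Fin 4} (D : MergeData H lab)
include D

theorem conn_main : P198S.Conn (iadj H lab) (main H lab) (side H lab 0) (side H lab 1) := by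
  rcases D.hexI univ with h | h
  · obtain ⟨x, _, hx, y, _, hy, hch⟩ := h
    have h1 : Relation.ReflTransGen (iadj H lab) x y := rtg_mono (fun _ _ h => h.1) hch
    have hxM : x ∈ main H lab := ⟨x, y, hx, hy, h1, .refl⟩
    exact ⟨x, hxM, hx, y, main_closed hxM h1, hy,
      chain_in_comp (fun _ _ => main_closed) hxM h1⟩
  · obtain ⟨x, hx, _⟩ := h
    simp at hx

theorem conn_main' : P198S.Conn (iadj H lab) (main H lab) (side H lab 2) (side H lab 3) := by
  rcases D.hexI ∅ with h | h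
  · obtain ⟨x, hx, _⟩ := h
    exact absurd hx (by simp)
  · obtain ⟨x, _, hx, y, _, hy, hch⟩ := h
    have h1 : Relation.ReflTransGen (iadj H lab) x y := rtg_mono (fun _ _ h => h.1) hch
    have hB : P198S.Conn (iadj H lab) {k | Relation.ReflTransGen (iadj H lab) x k}
        (side H lab 2) (side H lab 3) :=
      ⟨x, .refl, hx, y, h1, hy, chain_in_comp (fun _ _ h h' => h.trans h') .refl h1⟩
    obtain ⟨k, hk, hk'⟩ := D.crossI _ _ D.conn_main hB
    have hxM : x ∈ main H lab := main_closed hk (rtg_symm iadj_symm hk')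
    exact ⟨x, hxM, hx, y, main_closed hxM h1, hy,
      chain_in_comp (fun _ _ => main_closed) hxM h1⟩

/-- the main component is connected -/
theorem main_connected {i j : I} (hi : i ∈ main H lab) (hj : j ∈ main H lab) :
    Relation.ReflTransGen (iadj H lab) i j := by
  obtain ⟨s, _, hs, t, _, ht, hst⟩ := D.conn_main'
  have hst' : Relation.ReflTransGen (iadj H lab) s t := rtg_mono (fun _ _ h => h.1) hst
  have key : ∀ i ∈ main H lab, Relation.ReflTransGen (iadj H lab) s i := by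
    rintro i ⟨x, y, hx, hy, hxy, hxi⟩
    obtain ⟨k, hk, hk'⟩ := D.crossI {k | Relation.ReflTransGen (iadj H lab) x k}
      {k | Relation.ReflTransGen (iadj H lab) s k}
      ⟨x, .refl, hx, y, hxy, hy, chain_in_comp (fun _ _ h h' => h.trans h') .refl hxy⟩
      ⟨s, .refl, hs, t, hst', ht, chain_in_comp (fun _ _ h h' => h.trans h') .refl hst'⟩
    exact (hk'.trans (rtg_symm iadj_symm hk)).trans hxi
  exact (rtg_symm iadj_symm (key i hi)).trans (key j hj)

/-- a connected set of clusters containing a chain from left to right is in the main component -/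
theorem subset_main {J : Set I} (hJ : P198S.Conn (iadj H lab) J (side H lab 2) (side H lab 3))
    (hJc : ∀ i ∈ J, ∀ j ∈ J, Relation.ReflTransGen (iadj H lab) i j) : J ⊆ main H lab := by
  obtain ⟨k, hk, hk'⟩ := D.crossI _ _ D.conn_main hJ
  exact fun j hj => main_closed hk (hJc k hk' j hj)

/-- a connected set of clusters containing a chain from bottom to top is in the main component -/
theorem subset_main' {J : Set I} (hJ : P198S.Conn (iadj H lab) J (side H lab 0) (side H lab 1))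
    (hJc : ∀ i ∈ J, ∀ j ∈ J, Relation.ReflTransGen (iadj H lab) i j) : J ⊆ main H lab := by
  obtain ⟨k, hk, hk'⟩ := D.crossI _ _ hJ D.conn_main'
  exact fun j hj => main_closed hk' (hJc k hk j hj)

end MergeData

/-- chains in a subtype -/
theorem chain_sub {α : Type*} {r : α → α → Prop} {M A : Set α} (hA : A ⊆ M) {x y : α}
    (hx : x ∈ A) (h : Relation.ReflTransGen (fun u v => r u v ∧ u ∈ A ∧ v ∈ A) x y) :
    ∃ hy : y ∈ A, Relation.ReflTransGen (fun u v : M => r u v ∧ (u : α) ∈ A ∧ (v : α) ∈ A)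
      ⟨x, hA hx⟩ ⟨y, hA hy⟩ := by
  induction h with
  | refl => exact ⟨hx, .refl⟩
  | tail _ h2 ih =>
    obtain ⟨hy, hch⟩ := ih
    exact ⟨h2.2.2, hch.tail ⟨h2.1, hy, h2.2.2⟩⟩

/-- **The main component of the inner clusters is a combinatorial rectangle.** -/
def MergeData.rect {H : HexRect C} {lab : C → I ⊕ Fin 4} (D : MergeData H lab) :
    HexRect (main H lab) where
  adj := fun a b => iadj H lab a b
  symm := fun _ _ h => iadj_symm _ _ h
  connected := by
    intro a b
    have h1 := chain_in_comp (fun _ _ => main_closed) a.2 (D.main_connected a.2 b.2)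
    obtain ⟨_, h2⟩ := chain_sub (M := main H lab) Subset.rfl a.2 h1
    exact rtg_mono (fun _ _ h => h.1) h2
  L := {a | (a : I) ∈ side H lab 0}
  R := {a | (a : I) ∈ side H lab 1}
  S := {a | (a : I) ∈ side H lab 2}
  T := {a | (a : I) ∈ side H lab 3}
  hex := by
    intro A
    have hAM : Subtype.val '' A ⊆ main H lab := by
      rintro _ ⟨a, _, rfl⟩
      exact a.2
    rcases D.hexI (Subtype.val '' A) with h | h
    · left
      obtain ⟨x, hxA, hx, y, hyA, hy, hch⟩ := h
      obtain ⟨hy', h2⟩ := chain_sub hAM hxA hch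
      have conv : ∀ z (hz : z ∈ Subtype.val '' A), (⟨z, hAM hz⟩ : main H lab) ∈ A := by
        rintro _ ⟨a, ha, rfl⟩
        exact ha
      refine ⟨⟨x, hAM hxA⟩, conv x hxA, hx, ⟨y, hAM hyA⟩, conv y hyA, hy, ?_⟩
      refine rtg_mono ?_ h2
      intro u v huv
      exact ⟨huv.1, conv u huv.2.1, conv v huv.2.2⟩
    · right
      obtain ⟨s, hsA, hs, t, htA, ht, hch⟩ := h
      have hst : Relation.ReflTransGen (iadj H lab) s t := rtg_mono (fun _ _ h => h.1) hch
      have hsM : s ∈ main H lab := by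
        refine D.subset_main (J := {k | Relation.ReflTransGen (iadj H lab) s k})
          ⟨s, .refl, hs, t, hst, ht, chain_in_comp (fun _ _ h h' => h.trans h') .refl hst⟩
          (fun i hi j hj => (rtg_symm iadj_symm hi).trans hj)
          (Relation.ReflTransGen.refl : Relation.ReflTransGen (iadj H lab) s s)
      have h3 : Relation.ReflTransGen (fun u v => iadj H lab u v ∧
          u ∈ main H lab ∩ (Subtype.val '' A)ᶜ ∧ v ∈ main H lab ∩ (Subtype.val '' A)ᶜ) s t := by
        clear ht htA hst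
        induction hch with
        | refl => exact .refl
        | @tail y z h1 h2 ih =>
          have hy : y ∈ main H lab := main_closed hsM (rtg_mono (fun _ _ h => h.1) h1)
          exact ih.tail ⟨h2.1, ⟨hy, h2.2.1⟩, ⟨main_closed hy (.single h2.1), h2.2.2⟩⟩
      obtain ⟨ht', h4⟩ := chain_sub (M := main H lab) inter_subset_left ⟨hsM, hsA⟩ h3
      have conv : ∀ z : main H lab, (z : I) ∈ (Subtype.val '' A)ᶜ → z ∈ Aᶜ := by
        intro z hz hzA
        exact hz ⟨z, hzA, rfl⟩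
      refine ⟨⟨s, hsM⟩, conv _ hsA, hs, ⟨t, ht'.1⟩, conv _ htA, ht, ?_⟩
      exact rtg_mono (fun u v huv => ⟨huv.1, conv u huv.2.1.2, conv v huv.2.2.2⟩) h4
  cross := by
    intro A B hA hB
    have push : ∀ (A : Set (main H lab)) (X Y : Set I),
        P198S.Conn (fun a b : main H lab => iadj H lab a b) A {a | (a : I) ∈ X}
          {a | (a : I) ∈ Y} → P198S.Conn (iadj H lab) (Subtype.val '' A) X Y := by
      rintro A X Y ⟨x, hxA, hx, y, hyA, hy, hch⟩
      refine ⟨x, mem_image_of_mem _ hxA, hx, y, mem_image_of_mem _ hyA, hy, ?_⟩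
      clear hy hyA
      induction hch with
      | refl => exact .refl
      | tail _ h2 ih =>
        exact ih.tail ⟨h2.1, mem_image_of_mem _ h2.2.1, mem_image_of_mem _ h2.2.2⟩
    obtain ⟨z, ⟨a, ha, rfl⟩, ⟨b, hb, hab⟩⟩ := D.crossI _ _ (push A _ _ hA) (push B _ _ hB)
    exact ⟨a, ha, (Subtype.val_injective hab) ▸ hb⟩

end merge

end P198.PlanarTop
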