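import Vale.Agent.P198.Planar.PathK33

/-!
# P198, Stage 2 block HX1: Poincaré–Miranda in the square and the crossing lemma for paths

`miranda` : a continuous `f : I × I → ℂ` with `re f ≥ 0` on the left, `re f ≤ 0` on the right,
`im f ≥ 0` on the bottom and `im f ≤ 0` on the top side has a zero.
`crossing` : a path joining bottom to top inside a vertical strip meets a path joining left to
right inside a horizontal strip.
-/

open Set Topology unitInterval

namespace P198.PlanarTop

theorem log_I_mul {w : ℂ} (h0 : w ≠ 0) (hre : 0 ≤ w.re) (him : w.im ≤ 0) :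
    Complex.log (Complex.I * w) = Complex.log w + Real.pi / 2 * Complex.I := by
  have h1 : Complex.log (Complex.I * w) = Complex.log Complex.I + Complex.log w := by
    rw [Complex.log_mul_eq_add_log_iff Complex.I_ne_zero h0, Complex.arg_I]
    have h2 : w.arg ≤ 0 := by
      rcases eq_or_lt_of_le him with h | h
      · have : w.arg = 0 := Complex.arg_eq_zero_iff.2 ⟨hre, h⟩
        exact this.le
      · exact (Complex.arg_neg_iff.2 h).le
    have h3 : -(Real.pi / 2) ≤ w.arg := by
      have := Complex.abs_arg_le_pi_div_two_iff.2 hre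
      exact (abs_le.1 this).1
    constructor <;> linarith [Real.pi_pos]
  rw [h1, Complex.log_I]
  ring

theorem mem_slitPlane_of_re_nonneg {w : ℂ} (h0 : w ≠ 0) (hre : 0 ≤ w.re) :
    w ∈ Complex.slitPlane := by
  rw [Complex.mem_slitPlane_iff]
  rcases eq_or_lt_of_le hre with h | h
  · right
    intro him
    exact h0 (Complex.ext h.symm him)
  · exact Or.inl h

/-- continuous logarithms along a side on which a rotated function has nonnegative real part -/
theorem side_const {F : C(I, ℂ)} {f : I → ℂ} (hf : Continuous f)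
    (hF : ∀ x, Complex.exp (F x) = f x) (c e : ℂ) (hce : Complex.exp e * c = 1)
    (h0 : ∀ x, f x ≠ 0) (hre : ∀ x, 0 ≤ (c * f x).re) :
    F 0 - (Complex.log (c * f 0) + e) = F 1 - (Complex.log (c * f 1) + e) := by
  have hc : c ≠ 0 := by
    rintro rfl
    simp at hce
  refine log_diff_const (X := I) (A := univ) isPreconnected_univ (F := F)
    (G := fun x => Complex.log (c * f x) + e) F.continuous.continuousOn ?_ ?_
    (mem_univ 0) (mem_univ 1)
  · refine ContinuousOn.add ?_ continuousOn_const
    refine ContinuousOn.clog (by fun_prop) ?_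
    intro x _
    exact mem_slitPlane_of_re_nonneg (mul_ne_zero hc (h0 x)) (hre x)
  · intro x _
    rw [Complex.exp_add, Complex.exp_log (mul_ne_zero hc (h0 x)), hF x]
    linear_combination (-(f x)) * hce

theorem miranda (f : C(I × I, ℂ)) (hl : ∀ t, 0 ≤ (f (0, t)).re) (hr : ∀ t, (f (1, t)).re ≤ 0)
    (hb : ∀ s, 0 ≤ (f (s, 0)).im) (ht : ∀ s, (f (s, 1)).im ≤ 0) : ∃ z, f z = 0 := by
  by_contra hcon
  push Not at hcon
  obtain ⟨F, hF⟩ := hasLog_square f hcon
  have e1 : Complex.exp (Real.pi / 2 * Complex.I) = Complex.I := Complex.exp_pi_div_two_mul_I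
  -- left side
  have s1 := side_const (F := ⟨fun t => F (0, t), by fun_prop⟩) (f := fun t => f (0, t))
    (by fun_prop) (fun t => hF (0, t)) 1 0 (by simp) (fun t => hcon (0, t))
    (fun t => by simpa using hl t)
  -- bottom side
  have s2 := side_const (F := ⟨fun t => F (t, 0), by fun_prop⟩) (f := fun t => f (t, 0))
    (by fun_prop) (fun t => hF (t, 0)) (-Complex.I) (Real.pi / 2 * Complex.I)
    (by rw [e1]; simp) (fun t => hcon (t, 0))
    (fun t => by simpa using hb t)
  -- right side
  have s3 := side_const (F := ⟨fun t => F (1, t), by fun_prop⟩) (f := fun t => f (1, t))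
    (by fun_prop) (fun t => hF (1, t)) (-1) (Real.pi * Complex.I)
    (by rw [Complex.exp_pi_mul_I]; ring) (fun t => hcon (1, t))
    (fun t => by simpa using hr t)
  -- top side
  have s4 := side_const (F := ⟨fun t => F (t, 1), by fun_prop⟩) (f := fun t => f (t, 1))
    (by fun_prop) (fun t => hF (t, 1)) Complex.I (Real.pi * Complex.I + Real.pi / 2 * Complex.I)
    (by rw [Complex.exp_add, Complex.exp_pi_mul_I, e1]; linear_combination (-1) * Complex.I_sq)
    (fun t => hcon (t, 1)) (fun t => by simpa using ht t)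
  simp only [ContinuousMap.coe_mk] at s1 s2 s3 s4
  -- corners
  have c1 := log_I_mul (w := -Complex.I * f (0, 0)) (by simpa using hcon (0, 0))
    (by simpa using hb 0) (by simpa using hl 0)
  have c2 := log_I_mul (w := -1 * f (1, 0)) (by simpa using hcon (1, 0))
    (by simpa using hr 0) (by simpa using hb 1)
  have c3 := log_I_mul (w := Complex.I * f (1, 1)) (by simpa using hcon (1, 1))
    (by simpa using ht 1) (by simpa using hr 1)
  have c4 := log_I_mul (w := 1 * f (0, 1)) (by simpa using hcon (0, 1))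
    (by simpa using hl 1) (by simpa using ht 0)
  have d1 : Complex.I * (-Complex.I * f (0, 0)) = 1 * f (0, 0) := by
    linear_combination (-(f (0, 0))) * Complex.I_sq
  have d2 : Complex.I * (-1 * f (1, 0)) = -Complex.I * f (1, 0) := by ring
  have d3 : Complex.I * (Complex.I * f (1, 1)) = -1 * f (1, 1) := by
    linear_combination (f (1, 1)) * Complex.I_sq
  have d4 : Complex.I * (1 * f (0, 1)) = Complex.I * f (0, 1) := by ring
  rw [d1] at c1
  rw [d2] at c2
  rw [d3] at c3
  rw [d4] at c4
  have hfin : (2 * Real.pi * Complex.I : ℂ) = 0 := by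
    linear_combination s2 + s3 - s1 - s4 - c1 - c2 - c3 - c4
  exact Complex.two_pi_I_ne_zero hfin

/-- **Crossing lemma** for paths. -/
theorem crossing (a b c d : ℝ) (γ δ : C(I, ℂ)) (hγ : ∀ s, a ≤ (γ s).re ∧ (γ s).re ≤ b)
    (hδ : ∀ t, c ≤ (δ t).im ∧ (δ t).im ≤ d) (h0 : (γ 0).im ≤ c) (h1 : d ≤ (γ 1).im)
    (k0 : (δ 0).re ≤ a) (k1 : b ≤ (δ 1).re) : ∃ s t, γ s = δ t := by
  obtain ⟨z, hz⟩ := miranda ⟨fun z => γ (σ z.2) - δ z.1, by fun_prop⟩
    (fun t => by simpa using k0.trans (hγ _).1) (fun t => by simpa using (hγ _).2.trans k1)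
    (fun s => by simpa using (hδ _).2.trans h1) (fun s => by simpa using h0.trans (hδ _).1)
  exact ⟨σ z.2, z.1, sub_eq_zero.1 hz⟩

end P198.PlanarTop
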